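import Vale.Agent.Lib.P095H.Stmt
import Vale.Agent.Lib.P095.Tensor
import Vale.Agent.Lib.P095G.GStmt

/-!
# P095, second formulation: simplicity, nuclearity, spatial tensor products
-/

open scoped Topology TensorProduct ComplexOrder CStarAlgebra MultiplierAlgebra
open Filter

namespace P095H

universe u v

theorem simple_of_simple {A : Type u} [NonUnitalCStarAlgebra A]
    (hA : Vale.Agent.P095.IsSimpleCStar A) : P095G.SimpleCStar A := by
  obtain ⟨hnt, hI⟩ := hA
  refine ⟨exists_ne 0, ?_⟩
  intro x hx y ε hε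
  set S : Set A := Set.range fun p : A × A => p.1 * x * p.2 with hS
  set I : Submodule ℂ A := (Submodule.span ℂ S).topologicalClosure with hIdef
  have hcl : IsClosed (I : Set A) := Submodule.isClosed_topologicalClosure _
  have hmulL : ∀ a z : A, z ∈ Submodule.span ℂ S → a * z ∈ Submodule.span ℂ S := by
    intro a z hz
    induction hz using Submodule.span_induction with
    | mem z hz =>
      obtain ⟨p, rfl⟩ := hz
      refine Submodule.subset_span ⟨(a * p.1, p.2), ?_⟩
      simp only [mul_assoc]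
    | zero => rw [mul_zero]; exact Submodule.zero_mem _
    | add z w _ _ hz hw => rw [mul_add]; exact Submodule.add_mem _ hz hw
    | smul c z _ hz => rw [mul_smul_comm]; exact Submodule.smul_mem _ c hz
  have hmulR : ∀ a z : A, z ∈ Submodule.span ℂ S → z * a ∈ Submodule.span ℂ S := by
    intro a z hz
    induction hz using Submodule.span_induction with
    | mem z hz =>
      obtain ⟨p, rfl⟩ := hz
      refine Submodule.subset_span ⟨(p.1, p.2 * a), ?_⟩
      simp only [mul_assoc]
    | zero => rw [zero_mul]; exact Submodule.zero_mem _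
    | add z w _ _ hz hw => rw [add_mul]; exact Submodule.add_mem _ hz hw
    | smul c z _ hz => rw [smul_mul_assoc]; exact Submodule.smul_mem _ c hz
  have hmem : ∀ z : A, z ∈ I ↔ z ∈ closure (Submodule.span ℂ S : Set A) := by
    intro z
    rw [hIdef]
    rfl
  have hideal : ∀ a z : A, z ∈ I → a * z ∈ I ∧ z * a ∈ I := by
    intro a z hz
    rw [hmem] at hz
    constructor
    · rw [hmem]
      exact map_mem_closure (f := fun w => a * w) (by fun_prop) hz (fun w hw => hmulL a w hw)
    · rw [hmem]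
      exact map_mem_closure (f := fun w => w * a) (by fun_prop) hz (fun w hw => hmulR a w hw)
  have hne : I ≠ ⊥ := by
    intro hbot
    have h1 : star x * x * star x ∈ I := by
      rw [hmem]
      exact subset_closure (Submodule.subset_span ⟨(star x, star x), rfl⟩)
    rw [hbot, Submodule.mem_bot] at h1
    have h2 : star (star x * x) * (star x * x) = 0 := by
      rw [star_mul, star_star, ← mul_assoc, h1, zero_mul]
    have h3 := CStarRing.star_mul_self_eq_zero_iff (star x * x) |>.1 h2
    exact hx (CStarRing.star_mul_self_eq_zero_iff x |>.1 h3)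
  have htop : I = ⊤ := (hI I hcl hideal).resolve_left hne
  have hy : y ∈ closure (Submodule.span ℂ S : Set A) := by
    rw [← hmem, htop]
    exact Submodule.mem_top
  obtain ⟨z, hz, hyz⟩ := Metric.mem_closure_iff.1 hy ε hε
  obtain ⟨n, f, g, hfg⟩ := Submodule.mem_span_set'.1 hz
  choose p hp using fun i => (g i).2
  refine ⟨n, fun i => f i • (p i).1, fun i => (p i).2, ?_⟩
  have h4 : ∑ i, f i • (p i).1 * x * (p i).2 = z := by
    rw [← hfg]
    refine Finset.sum_congr rfl fun i _ => ?_
    rw [← hp i, smul_mul_assoc, smul_mul_assoc]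
  rw [h4, ← dist_eq_norm]
  exact hyz

section CP

theorem sum_star_sq {B : Type*} [NonUnitalCStarAlgebra B] {n : ℕ} (y : Fin n → B) :
    ∃ c : B, ∑ l, star (y l) * y l = star c * c := by
  let _ : PartialOrder B := CStarAlgebra.spectralOrder B
  have _ : StarOrderedRing B := CStarAlgebra.spectralOrderedRing B
  have h : (0 : B) ≤ ∑ l, star (y l) * y l := Finset.sum_nonneg fun l _ => star_mul_self_nonneg _
  exact CStarAlgebra.nonneg_iff_eq_star_mul_self.1 h

theorem cp_sum {A : Type u} {B : Type v} [NonUnitalRing A] [StarRing A] [Module ℂ A]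
    [NonUnitalRing B] [StarRing B] [Module ℂ B] {φ : A →ₗ[ℂ] B} (hφ : IsCompletelyPositive φ)
    (hB : ∀ (n : ℕ) (y : Fin n → B), ∃ c : B, ∑ l, star (y l) * y l = star c * c) :
    P095G.CompletelyPositiveN φ := by
  intro n a b
  obtain ⟨X, hXij⟩ := hφ n a
  obtain ⟨c, hc⟩ := hB n (fun l => ∑ i, X l i * b i)
  refine ⟨c, ?_⟩
  rw [← hc]
  have h1 : ∀ i j, star (b i) * φ (star (a i) * a j) * b j =
      ∑ l, (star (b i) * star (X l i)) * (X l j * b j) := by
    intro i j
    rw [hXij, Finset.mul_sum, Finset.sum_mul]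
    exact Finset.sum_congr rfl fun l _ => by simp only [mul_assoc]
  have h2 : ∀ l, star (∑ i, X l i * b i) * ∑ j, X l j * b j =
      ∑ i, ∑ j, (star (b i) * star (X l i)) * (X l j * b j) := by
    intro l
    rw [star_sum, Finset.sum_mul_sum]
    simp only [star_mul]
  simp only [h1, h2]
  calc ∑ i, ∑ j, ∑ l, (star (b i) * star (X l i)) * (X l j * b j) =
      ∑ i, ∑ l, ∑ j, (star (b i) * star (X l i)) * (X l j * b j) :=
        Finset.sum_congr rfl fun i _ => Finset.sum_comm
    _ = _ := Finset.sum_comm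

end CP

theorem nuclearN_of {A : Type u} [NonUnitalCStarAlgebra A] (hA : IsNuclear A) :
    P095G.NuclearN A := by
  intro S ε hε
  obtain ⟨k, φ, ψ, hφ, hψ, -, h⟩ := hA S ε hε
  refine ⟨k, φ, ψ, cp_sum hφ ?_, cp_sum hψ fun n y => sum_star_sq y, fun a ha => (h a ha).le⟩
  intro n y
  let e : Matrix (Fin k) (Fin k) ℂ ≃⋆ₐ[ℂ] CStarMatrix (Fin k) (Fin k) ℂ :=
    CStarMatrix.ofMatrixStarAlgEquiv
  obtain ⟨c, hc⟩ := sum_star_sq (B := CStarMatrix (Fin k) (Fin k) ℂ) (fun l => e (y l))
  refine ⟨e.symm c, ?_⟩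
  have h1 := congrArg e.symm hc
  rw [map_mul e.symm, map_star e.symm, map_sum e.symm] at h1
  rw [← h1]
  refine Finset.sum_congr rfl fun l _ => ?_
  rw [map_mul e.symm, map_star e.symm, e.symm_apply_apply]

section Spatial

open Vale.Agent.P095

variable {A D C : Type u} [NonUnitalCStarAlgebra A] [NonUnitalCStarAlgebra D]
  [NonUnitalCStarAlgebra C] {t : A → D → C}

/-- the slice map `a ⊗ d ↦ f(a) d` -/
noncomputable def slice (f : A →ₗ[ℂ] ℂ) : A ⊗[ℂ] D →ₗ[ℂ] D :=
  TensorProduct.lift ((LinearMap.lsmul ℂ D).comp f)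

theorem slice_tmul (f : A →ₗ[ℂ] ℂ) (a : A) (d : D) : slice f (a ⊗ₜ[ℂ] d) = f a • d := by
  simp [slice]

theorem eq_zero_of_slices {F : Set (A →ₗ[ℂ] ℂ)} (hF : ∀ a : A, (∀ f ∈ F, f a = 0) → a = 0)
    (x : A ⊗[ℂ] D) (hx : ∀ f ∈ F, slice f x = 0) : x = 0 := by
  classical
  let b := Module.Basis.ofVectorSpace ℂ D
  let e := TensorProduct.equivFinsuppOfBasisRight (M := A) b
  have key : ∀ (f : A →ₗ[ℂ] ℂ) (x : A ⊗[ℂ] D) (i), b.repr (slice f x) i = f (e x i) := by
    intro f x i
    induction x using TensorProduct.induction_on with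
    | zero => simp
    | tmul a d =>
      rw [slice_tmul, TensorProduct.equivFinsuppOfBasisRight_apply_tmul_apply]
      simp [mul_comm]
    | add x y hx hy => simp only [map_add, Finsupp.add_apply, hx, hy]
  have h0 : e x = 0 := by
    ext i
    refine hF _ fun f hf => ?_
    rw [← key, hx f hf]
    simp
  exact e.map_eq_zero_iff.1 h0

theorem lin_injective (ht : IsSpatialTensorProduct t) : Function.Injective ht.laws.lin := by
  rw [injective_iff_map_eq_zero]
  intro x hx
  obtain ⟨H, K, L, i1, i2, i3, i4, i5, i6, i7, i8, i9, hrep⟩ := ht.exists_rep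
  obtain ⟨τ, π, σ, ρ, hτ, hπ, hσ, hρ, hel⟩ := hrep
  let f : H → H → (A →ₗ[ℂ] ℂ) := fun ξ' ξ =>
    { toFun := fun a => inner ℂ ξ' (π a ξ)
      map_add' := fun a b => by
        rw [map_add, add_apply, inner_add_right]
      map_smul' := fun c a => by
        rw [map_smul, smul_apply, inner_smul_right]
        rfl }
  have key : ∀ (ξ' ξ : H) (η' η : K) (x : A ⊗[ℂ] D),
      inner ℂ (τ ξ' η') (ρ (ht.laws.lin x) (τ ξ η)) =
        inner ℂ η' (σ (slice (f ξ' ξ) x) η) := by
    intro ξ' ξ η' η x
    induction x using TensorProduct.induction_on with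
    | zero => simp
    | tmul a d =>
      rw [TensorLaws.lin_tmul, hel, hτ.1, slice_tmul, map_smul, smul_apply,
        inner_smul_right]
      rfl
    | add x y hx hy =>
      rw [map_add, map_add, add_apply, inner_add_right, hx, hy, map_add,
        map_add, add_apply, inner_add_right]
  refine eq_zero_of_slices (F := {g | ∃ ξ' ξ, g = f ξ' ξ}) ?_ x ?_
  · intro a ha
    apply hπ
    rw [map_zero]
    ext ξ
    have h1 := ha (f (π a ξ) ξ) ⟨_, _, rfl⟩
    exact inner_self_eq_zero.1 h1
  · rintro _ ⟨ξ', ξ, rfl⟩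
    apply hσ
    rw [map_zero]
    ext η
    have h1 := key ξ' ξ (σ (slice (f ξ' ξ) x) η) η x
    rw [hx, map_zero, zero_apply, inner_zero_right] at h1
    exact inner_self_eq_zero.1 h1.symm

end Spatial

theorem completion_of_spatial {A Z C : Type u} [NonUnitalCStarAlgebra A] [CStarAlgebra Z]
    [NonUnitalCStarAlgebra C] {t : A → Z → C} (ht : Vale.Agent.P095.IsSpatialTensorProduct t) :
    P095G.IsTensorCompletion ht.laws.lin where
  mul a a' z z' := by
    rw [Vale.Agent.P095.TensorLaws.lin_tmul, Vale.Agent.P095.TensorLaws.lin_tmul,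
      Vale.Agent.P095.TensorLaws.lin_tmul, ht.laws.mul]
  star a z := by
    rw [Vale.Agent.P095.TensorLaws.lin_tmul, Vale.Agent.P095.TensorLaws.lin_tmul, ht.laws.star]
  injective := lin_injective ht
  dense := ht.laws.denseRange ht

end P095H
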