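import Vale.Agent.Lib.P095H.DerivA

/-!
# P095, second formulation: the Jiang-Su algebra and cocycle conjugacy
-/

open scoped Topology TensorProduct ComplexOrder CStarAlgebra MultiplierAlgebra
open Filter

namespace P095H

universe u v

open Vale.Agent.P095

theorem exists_unital_hom {A Z C : Type u} [CStarAlgebra A] [CStarAlgebra Z] [CStarAlgebra C]
    {t : A → Z → C} (ht : IsSpatialTensorProduct t) :
    ∃ m : A ⊗[ℂ] Z →⋆ₐ[ℂ] C, Function.Injective m ∧ DenseRange m ∧
      ∀ a z, m (a ⊗ₜ[ℂ] z) = t a z := by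
  have hone : ∀ c : C, t 1 1 * c = c := by
    intro c
    refine (ht.laws.denseRange ht).induction_on (p := fun c => t 1 1 * c = c) c
      (isClosed_eq (by fun_prop) continuous_id) ?_
    intro y
    induction y using TensorProduct.induction_on with
    | zero => simp
    | tmul a z => rw [ht.laws.lin_tmul, ht.laws.mul, one_mul, one_mul]
    | add x y hx hy => rw [map_add, mul_add, hx, hy]
  have h11 : t 1 1 = 1 := by
    have := hone 1
    rwa [mul_one] at this
  let m : A ⊗[ℂ] Z →⋆ₐ[ℂ] C :=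
    { toFun := ht.laws.lin
      map_one' := by rw [Algebra.TensorProduct.one_def, ht.laws.lin_tmul, h11]
      map_mul' := by
        intro x y
        induction x using TensorProduct.induction_on with
        | zero => simp
        | add x x' hx hx' => rw [add_mul, map_add, map_add, add_mul, hx, hx']
        | tmul a z =>
          induction y using TensorProduct.induction_on with
          | zero => simp
          | add y y' hy hy' => rw [mul_add, map_add, map_add, mul_add, hy, hy']
          | tmul a' z' =>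
            rw [Algebra.TensorProduct.tmul_mul_tmul, ht.laws.lin_tmul, ht.laws.lin_tmul,
              ht.laws.lin_tmul, ht.laws.mul]
      map_zero' := map_zero _
      map_add' := map_add _
      commutes' := by
        intro r
        rw [Algebra.algebraMap_eq_smul_one, Algebra.algebraMap_eq_smul_one, map_smul,
          Algebra.TensorProduct.one_def, ht.laws.lin_tmul, h11]
      map_star' := by
        intro x
        induction x using TensorProduct.induction_on with
        | zero => simp
        | add x x' hx hx' => rw [star_add, map_add, map_add, star_add, hx, hx']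
        | tmul a z =>
          rw [TensorProduct.star_tmul, ht.laws.lin_tmul, ht.laws.lin_tmul, ht.laws.star] }
  exact ⟨m, lin_injective ht, ht.laws.denseRange ht, fun a z => ht.laws.lin_tmul a z⟩

theorem exists_extension {X : Type*} [Ring X] [StarRing X] [Algebra ℂ X] {B B' : Type u}
    [CStarAlgebra B] [CStarAlgebra B'] (m : X →⋆ₐ[ℂ] B) (m' : X →⋆ₐ[ℂ] B')
    (hd : DenseRange m) (h : ∀ x, ‖m' x‖ ≤ ‖m x‖) :
    ∃ ν : B →⋆ₐ[ℂ] B', ∀ x, ν (m x) = m' x := by
  let ml : X →ₗ[ℂ] B := (m : X →ₐ[ℂ] B).toLinearMap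
  let ml' : X →ₗ[ℂ] B' := (m' : X →ₐ[ℂ] B').toLinearMap
  let φ : B →L[ℂ] B' := LinearMap.extendOfNorm ml' ml
  have hφ : ∀ x, φ (m x) = m' x := fun x =>
    LinearMap.extendOfNorm_eq (f := ml') (e := ml) hd ⟨1, fun x => by rw [one_mul]; exact h x⟩ x
  have hmul' : ∀ b b' : B, φ (b * b') = φ b * φ b' := by
    intro b b'
    refine hd.induction_on₂ (p := fun b b' => φ (b * b') = φ b * φ b') ?_ ?_ b b'
    · exact isClosed_eq (φ.continuous.comp (continuous_fst.mul continuous_snd))
        ((φ.continuous.comp continuous_fst).mul (φ.continuous.comp continuous_snd))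
    · intro x y
      rw [← map_mul, hφ, hφ, hφ, map_mul]
  have hstar' : ∀ b : B, φ (star b) = star (φ b) := by
    intro b
    refine hd.induction_on (p := fun b => φ (star b) = star (φ b)) b ?_ ?_
    · exact isClosed_eq (φ.continuous.comp continuous_star) (continuous_star.comp φ.continuous)
    · intro x
      rw [← map_star, hφ, hφ, map_star]
  have hone : φ 1 = 1 := by
    rw [← map_one m, hφ, map_one]
  exact ⟨{ toFun := φ
           map_one' := hone
           map_mul' := hmul'
           map_zero' := map_zero φ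
           map_add' := map_add φ
           commutes' := fun r => by
             rw [Algebra.algebraMap_eq_smul_one, Algebra.algebraMap_eq_smul_one]
             show φ (r • 1) = r • 1
             rw [map_smul, hone]
           map_star' := hstar' }, hφ⟩

theorem nuclear_of {Z : Type u} [CStarAlgebra Z] (hZ : UniqueCStarNorm Z) : P095E.Nuclear Z := by
  intro D _ B B' _ _ m m' hm hd hm' hd'
  have h1 : ∀ x, ‖m' x‖ ≤ ‖m x‖ := fun x => (hZ D B' B m' m hm' hm x).le
  have h2 : ∀ x, ‖m x‖ ≤ ‖m' x‖ := fun x => (hZ D B B' m m' hm hm' x).le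
  obtain ⟨ν, hν⟩ := exists_extension m m' hd h1
  obtain ⟨ν', hν'⟩ := exists_extension m' m hd' h2
  have hc : Continuous ν := AddMonoidHomClass.continuous_of_bound ν 1 fun x => by
    rw [one_mul]; exact NonUnitalStarAlgHom.norm_apply_le ν x
  have hc' : Continuous ν' := AddMonoidHomClass.continuous_of_bound ν' 1 fun x => by
    rw [one_mul]; exact NonUnitalStarAlgHom.norm_apply_le ν' x
  have hl : ∀ b, ν' (ν b) = b := fun b =>
    hd.induction_on (p := fun b => ν' (ν b) = b) b
      (isClosed_eq (hc'.comp hc) continuous_id) fun x => by rw [hν, hν']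
  have hr : ∀ b, ν (ν' b) = b := fun b =>
    hd'.induction_on (p := fun b => ν (ν' b) = b) b
      (isClosed_eq (hc.comp hc') continuous_id) fun x => by rw [hν', hν]
  exact ⟨StarAlgEquiv.ofBijective ν ⟨Function.LeftInverse.injective hl,
    Function.RightInverse.surjective hr⟩, hν⟩

theorem limit_of {Z : Type u} [CStarAlgebra Z] (hZ : IsLimitOfPrimeDimensionDropAlgebras Z) :
    P101.IsDimDropLimit Z := by
  obtain ⟨B, hmono, hd, hB⟩ := hZ
  refine ⟨B, monotone_nat_of_le_succ hmono, ?_, hB⟩
  refine hd.mono ?_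
  rintro z ⟨n, hn⟩
  exact Set.mem_iUnion.2 ⟨n, hn⟩

theorem ssa_of {Z : Type u} [CStarAlgebra Z] (hZ : IsStronglySelfAbsorbing Z) :
    P095E.StronglySelfAbsorbing Z := by
  obtain ⟨C, i, t, e, ht, h⟩ := hZ
  obtain ⟨m, hm, hd, hmt⟩ := exists_unital_hom ht
  refine ⟨C, i, m, e, hm, hd, fun S ε hε => ?_⟩
  obtain ⟨u, hu, hS⟩ := h S ε hε
  refine ⟨u, hu, fun z hz => ?_⟩
  rw [hmt]
  exact hS z hz

theorem flip_of {Z : Type u} [CStarAlgebra Z] (hn : UniqueCStarNorm Z)
    (hZ : HasApproximatelyInnerHalfFlip Z) : P101.HasInnerHalfFlip Z := by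
  intro C' _ μ hμ S ε hε
  obtain ⟨C, i, t, ht, h⟩ := hZ
  obtain ⟨m, hm, hd, hmt⟩ := exists_unital_hom ht
  have hle : ∀ x, ‖μ x‖ ≤ ‖m x‖ := by
    intro x
    have h1 := hn Z C (C × C') m (m.prod μ) hm (fun x y hxy => hm (congrArg Prod.fst hxy)) x
    rw [h1]
    exact le_max_right ‖m x‖ ‖μ x‖
  obtain ⟨ν, hν⟩ := exists_extension m μ hd hle
  obtain ⟨u, hu, hS⟩ := h S ε hε
  refine ⟨ν u, Unitary.map_mem ν hu, fun z hz => ?_⟩
  have h2 : ν u * μ (z ⊗ₜ[ℂ] 1) * star (ν u) - μ (1 ⊗ₜ[ℂ] z) =
      ν (u * t z 1 * star u - t 1 z) := by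
    rw [map_sub, map_mul, map_mul, map_star, ← hmt, ← hmt, hν, hν]
  rw [h2]
  exact lt_of_le_of_lt (NonUnitalStarAlgHom.norm_apply_le ν _) (hS z hz)

theorem jiangSu_of {Z : Type u} [CStarAlgebra Z] (hZ : IsJiangSuAlgebra Z) :
    P095E.IsJiangSu Z where
  separable := hZ.separable
  simple := hZ.simple
  infinite := hZ.infinite
  nuclear := nuclear_of hZ.nuclear
  limit := limit_of hZ.limit
  flip := flip_of hZ.nuclear hZ.halfFlip
  selfAbsorbing := ssa_of hZ.selfAbsorbing

theorem mulExt_of_multMaps {B : Type u} [NonUnitalCStarAlgebra B] (g : B ≃⋆ₐ[ℂ] B)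
    {m m' : 𝓜(ℂ, B)} (h : P095G.MultMaps g m m') : m' = mulExt g m := by
  refine DoubleCentralizer.ext _ _ _ _ (Prod.ext ?_ ?_)
  · ext b
    show m'.fst b = g (m.fst (g.symm b))
    rw [← (h (g.symm b)).1, g.apply_symm_apply]
  · ext b
    show m'.snd b = g (m.snd (g.symm b))
    rw [← (h (g.symm b)).2, g.apply_symm_apply]

theorem conjugate_of {G : Type v} [Group G] {A B : Type u} [NonUnitalCStarAlgebra A]
    [NonUnitalCStarAlgebra B] {α : G →* (A ≃⋆ₐ[ℂ] A)} {γ : G →* (B ≃⋆ₐ[ℂ] B)}
    (h : P095G.CocycleConjugateM α γ) : CocycleConjugate α γ := by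
  obtain ⟨Φ, w, hw, hΦ⟩ := h
  refine ⟨Φ, w, fun g k => ?_, hΦ⟩
  obtain ⟨m, hm, hwm⟩ := hw g k
  rw [hwm, mulExt_of_multMaps (γ g) hm]

end P095H
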