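import Vale.Agent.Lib.P095H.Stmt
import Vale.Agent.Lib.P095F.Stmt2

/-!
# P095, second formulation: amenability (von Neumann's definition implies Følner's condition)
-/

open scoped Pointwise

namespace P095H

universe v

variable {G : Type v}

theorem measure_biUnion {μ : Set G → ℝ} (hadd : ∀ s t, Disjoint s t → μ (s ∪ t) = μ s + μ t)
    {ι : Type*} [DecidableEq ι] (S : Finset ι) (B : ι → Set G)
    (hB : ∀ i ∈ S, ∀ j ∈ S, i ≠ j → Disjoint (B i) (B j)) :
    μ (⋃ i ∈ S, B i) = ∑ i ∈ S, μ (B i) := by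
  have h0 : μ ∅ = 0 := by
    have := hadd ∅ ∅ (Set.disjoint_empty _)
    rw [Set.union_empty] at this
    linarith
  induction S using Finset.induction_on with
  | empty => simpa using h0
  | insert a S ha ih =>
    rw [Finset.set_biUnion_insert, hadd, Finset.sum_insert ha, ih]
    · intro i hi j hj hij
      exact hB i (Finset.mem_insert_of_mem hi) j (Finset.mem_insert_of_mem hj) hij
    · rw [Set.disjoint_iUnion₂_right]
      intro i hi
      refine hB a (Finset.mem_insert_self _ _) i (Finset.mem_insert_of_mem hi) ?_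
      rintro rfl
      exact ha hi

theorem measure_le_one {μ : Set G → ℝ} (hpos : ∀ s, 0 ≤ μ s) (h1 : μ Set.univ = 1)
    (hadd : ∀ s t, Disjoint s t → μ (s ∪ t) = μ s + μ t) (s : Set G) : μ s ≤ 1 := by
  have h := hadd s sᶜ disjoint_compl_right
  rw [Set.union_compl_self, h1] at h
  have := hpos sᶜ
  linarith

theorem growth [Group G] [DecidableEq G] {K₀ : Finset G} {ε : ℝ}
    (hK : ∀ K : Finset G, K.Nonempty → ∃ h ∈ K₀,
      ε * K.card < (Nat.card {g : G // g ∉ K ∧ h⁻¹ * g ∈ K} : ℝ)) (K : Finset G) :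
    (1 + ε) * (K.card : ℝ) ≤ ((insert 1 K₀ * K).card : ℝ) := by
  rcases K.eq_empty_or_nonempty with rfl | hne
  · simp
  obtain ⟨h, hh, hlt⟩ := hK K hne
  have hsub : K ∪ (K.image (fun x => h * x) \ K) ⊆ insert 1 K₀ * K := by
    intro g hg
    rcases Finset.mem_union.1 hg with hg | hg
    · exact Finset.mem_mul.2 ⟨1, Finset.mem_insert_self _ _, g, hg, one_mul g⟩
    · obtain ⟨x, hx, rfl⟩ := Finset.mem_image.1 (Finset.mem_sdiff.1 hg).1
      exact Finset.mem_mul.2 ⟨h, Finset.mem_insert_of_mem hh, x, hx, rfl⟩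
  have hcard : Nat.card {g : G // g ∉ K ∧ h⁻¹ * g ∈ K} =
      (K.image (fun x => h * x) \ K).card := by
    rw [← Nat.card_eq_finsetCard]
    refine Nat.card_congr (Equiv.subtypeEquivRight fun g => ?_)
    rw [Finset.mem_sdiff, Finset.mem_image]
    constructor
    · rintro ⟨h1, h2⟩
      exact ⟨⟨h⁻¹ * g, h2, by rw [mul_inv_cancel_left]⟩, h1⟩
    · rintro ⟨⟨x, hx, rfl⟩, h2⟩
      exact ⟨h2, by rwa [inv_mul_cancel_left]⟩
  have h1 := Finset.card_le_card hsub
  rw [Finset.card_union_of_disjoint Finset.disjoint_sdiff] at h1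
  have h2 : (K.card : ℝ) + (K.image (fun x => h * x) \ K).card ≤
      ((insert 1 K₀ * K).card : ℝ) := by exact_mod_cast h1
  rw [hcard] at hlt
  linarith

theorem folner_of_measure [Group G] (hG : IsAmenable G) : P095F.AmenableGroup G := by
  classical
  by_contra hcon
  unfold P095F.AmenableGroup at hcon
  push Not at hcon
  obtain ⟨K₀, ε, hε, hK⟩ := hcon
  obtain ⟨μ, hpos, h1, hadd, hinv⟩ := hG
  have hgrow := growth hK
  have hpow : ∀ (n : ℕ) (K : Finset G),
      (1 + ε) ^ n * (K.card : ℝ) ≤ (((insert 1 K₀) ^ n * K).card : ℝ) := by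
    intro n
    induction n with
    | zero => intro K; simp
    | succ n ih =>
      intro K
      rw [pow_succ', mul_assoc, pow_succ', mul_assoc]
      refine le_trans (mul_le_mul_of_nonneg_left (ih K) (by linarith)) ?_
      exact hgrow _
  obtain ⟨n, hn⟩ := pow_unbounded_of_one_lt 2 (show (1 : ℝ) < 1 + ε by linarith)
  set E : Finset G := (insert 1 K₀) ^ n with hE
  have h2 : ∀ K : Finset G, 2 * K.card ≤ (E * K).card := by
    intro K
    have h3 := hpow n K
    have h4 : (2 : ℝ) * K.card ≤ (1 + ε) ^ n * K.card :=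
      mul_le_mul_of_nonneg_right hn.le (Nat.cast_nonneg _)
    exact_mod_cast h4.trans h3
  have hall : ∀ s : Finset (G × Bool),
      s.card ≤ (s.biUnion (fun p : G × Bool => E.image (fun e => e * p.1))).card := by
    intro s
    have h3 : s.biUnion (fun p : G × Bool => E.image (fun e => e * p.1)) =
        E * s.image Prod.fst := by
      ext g
      simp only [Finset.mem_biUnion, Finset.mem_image, Finset.mem_mul]
      constructor
      · rintro ⟨p, hp, e, he, rfl⟩
        exact ⟨e, he, p.1, ⟨p, hp, rfl⟩, rfl⟩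
      · rintro ⟨e, he, _, ⟨p, hp, rfl⟩, rfl⟩
        exact ⟨p, hp, e, he, rfl⟩
    have h4 : s ⊆ (s.image Prod.fst) ×ˢ (Finset.univ : Finset Bool) := by
      intro p hp
      exact Finset.mem_product.2 ⟨Finset.mem_image_of_mem _ hp, Finset.mem_univ _⟩
    have h5 := Finset.card_le_card h4
    rw [Finset.card_product, Finset.card_univ, Fintype.card_bool] at h5
    rw [h3]
    have := h2 (s.image Prod.fst)
    omega
  obtain ⟨f, hf, hfE⟩ := (Finset.all_card_le_biUnion_card_iff_exists_injective _).1 hall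
  let A : Bool → G → Set G := fun i e => {x | f (x, i) = e * x}
  have hsum : ∀ i, ∑ e ∈ E, μ (A i e) = 1 := by
    intro i
    rw [← measure_biUnion hadd E (A i)]
    · have : (⋃ e ∈ E, A i e) = Set.univ := by
        rw [Set.eq_univ_iff_forall]
        intro x
        obtain ⟨e, he, hex⟩ := Finset.mem_image.1 (hfE (x, i))
        exact Set.mem_iUnion₂.2 ⟨e, he, hex.symm⟩
      rw [this, h1]
    · intro e _ e' _ hne
      rw [Set.disjoint_left]
      intro x hx hx'
      refine hne (mul_right_cancel (b := x) ?_)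
      exact (show f (x, i) = e * x from hx).symm.trans hx'
  have hdis : μ (⋃ p ∈ (Finset.univ : Finset Bool) ×ˢ E, (fun x => p.2 * x) '' (A p.1 p.2)) =
      ∑ p ∈ (Finset.univ : Finset Bool) ×ˢ E, μ ((fun x => p.2 * x) '' (A p.1 p.2)) := by
    refine measure_biUnion hadd _ (fun p : Bool × G => (fun x => p.2 * x) '' (A p.1 p.2)) ?_
    rintro ⟨i, e⟩ _ ⟨j, e'⟩ _ hne
    rw [Set.disjoint_left]
    rintro _ ⟨x, hx, rfl⟩ ⟨y, hy, hxy⟩
    have hx' : f (x, i) = e * x := hx
    have hy' : f (y, j) = e' * y := hy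
    have h3 : f (x, i) = f (y, j) := by rw [hx', hy']; exact hxy.symm
    have h4 := hf h3
    have h5 : x = y := congrArg Prod.fst h4
    have h6 : i = j := congrArg Prod.snd h4
    subst h5 h6
    refine hne ?_
    have : e = e' := mul_right_cancel (hx'.symm.trans hy')
    rw [this]
  have hle := measure_le_one hpos h1 hadd
    (⋃ p ∈ (Finset.univ : Finset Bool) ×ˢ E, (fun x => p.2 * x) '' (A p.1 p.2))
  rw [hdis] at hle
  simp only [hinv] at hle
  rw [Finset.sum_product] at hle
  simp only [hsum] at hle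
  norm_num at hle

end P095H
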