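import Vale.Agent.Lib.P095.Basic
import Vale.Agent.Lib.P101.Stmt

/-!
# P095, second formulation: the definitions
-/

open scoped TensorProduct ComplexOrder

namespace P095H

universe u v

/-- The discrete group `G` is amenable (von Neumann): there is a finitely additive probability
measure `μ`, defined on all subsets of `G` and invariant under left translations. -/
def IsAmenable (G : Type v) [Group G] : Prop :=
  ∃ μ : Set G → ℝ, (∀ s, 0 ≤ μ s) ∧ μ Set.univ = 1 ∧
    (∀ s t, Disjoint s t → μ (s ∪ t) = μ s + μ t) ∧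
    ∀ (g : G) (s : Set G), μ ((fun x => g * x) '' s) = μ s

/-- The linear map `φ : A → B` between C*-algebras is completely positive: for all `a_1, …, a_n` in
`A` the matrix `(φ(a_i* a_j))_{ij}` is a positive element of `M_n(B)`, that is, it is equal to `Y* Y`
for some `Y` in `M_n(B)`.  (Every positive element of `M_n(A)` is a sum of `n` matrices of the form
`(a_i* a_j)_{ij}`.) -/
def IsCompletelyPositive {A : Type u} {B : Type v} [NonUnitalRing A] [StarRing A] [Module ℂ A]
    [NonUnitalRing B] [StarRing B] [Module ℂ B] (φ : A →ₗ[ℂ] B) : Prop :=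
  ∀ (n : ℕ) (a : Fin n → A), ∃ Y : Fin n → Fin n → B,
    ∀ i j, φ (star (a i) * a j) = ∑ l, star (Y l i) * Y l j

/-- The (possibly nonunital) C*-algebra `A` is nuclear, in the form of the completely positive
approximation property: the identity of `A` is a limit, in the topology of pointwise norm
convergence, of contractions `A → M_k(ℂ) → A` that are compositions of two completely positive
maps. -/
def IsNuclear (A : Type u) [NonUnitalCStarAlgebra A] : Prop :=
  ∀ (S : Finset A) (ε : ℝ), 0 < ε → ∃ (k : ℕ) (φ : A →ₗ[ℂ] Matrix (Fin k) (Fin k) ℂ)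
    (ψ : Matrix (Fin k) (Fin k) ℂ →ₗ[ℂ] A), IsCompletelyPositive φ ∧ IsCompletelyPositive ψ ∧
      (∀ a, ‖ψ (φ a)‖ ≤ ‖a‖) ∧ ∀ a ∈ S, ‖ψ (φ a) - a‖ < ε

/-- On the algebraic tensor product of `Z` with any unital C*-algebra `D` there is only one C*-norm:
any two injective *-homomorphisms from `D ⊗ Z` to C*-algebras induce the same norm.  (For `Z` unital
this is Takesaki's property (T), i.e. nuclearity of `Z`.) -/
def UniqueCStarNorm (Z : Type u) [CStarAlgebra Z] : Prop :=
  ∀ (D B B' : Type u) [CStarAlgebra D] [CStarAlgebra B] [CStarAlgebra B']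
    (m : D ⊗[ℂ] Z →⋆ₐ[ℂ] B) (m' : D ⊗[ℂ] Z →⋆ₐ[ℂ] B'),
    Function.Injective m → Function.Injective m' → ∀ x, ‖m x‖ = ‖m' x‖

/-- `τ` is a tracial state of `Z`. -/
structure IsTracialState {Z : Type u} [CStarAlgebra Z] (τ : Z →ₗ[ℂ] ℂ) : Prop where
  map_one : τ 1 = 1
  nonneg : ∀ x, 0 ≤ τ (star x * x)
  trace : ∀ x y, τ (x * y) = τ (y * x)

/-- `Z` is an inductive limit of prime dimension drop algebras: it is the closure of the union of
an increasing sequence of closed unital *-subalgebras, each of them isomorphic to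
`I(p, q) = P101.dimDrop p q` for some coprime `p, q ≥ 1`. -/
def IsLimitOfPrimeDimensionDropAlgebras (Z : Type u) [CStarAlgebra Z] : Prop :=
  ∃ B : ℕ → StarSubalgebra ℂ Z, (∀ n, B n ≤ B (n + 1)) ∧ Dense {z : Z | ∃ n, z ∈ B n} ∧
    ∀ n, ∃ p q : ℕ, 1 ≤ p ∧ 1 ≤ q ∧ Nat.Coprime p q ∧ P101.IsDimDropCopy (B n) p q

/-- `Z` is strongly self-absorbing: for the spatial tensor product `t : Z × Z → C` there is an
isomorphism `e : Z → C` which is approximately unitarily equivalent to `z ↦ z ⊗ 1`. -/
def IsStronglySelfAbsorbing (Z : Type u) [CStarAlgebra Z] : Prop :=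
  ∃ (C : Type u) (_ : CStarAlgebra C) (t : Z → Z → C) (e : Z ≃⋆ₐ[ℂ] C),
    Vale.Agent.P095.IsSpatialTensorProduct t ∧ ∀ (S : Finset Z) (ε : ℝ), 0 < ε →
      ∃ u ∈ unitary C, ∀ z ∈ S, ‖u * t z 1 * star u - e z‖ < ε

/-- `Z` has approximately inner half flip: for the spatial tensor product `t : Z × Z → C` the maps
`z ↦ z ⊗ 1` and `z ↦ 1 ⊗ z` are approximately unitarily equivalent. -/
def HasApproximatelyInnerHalfFlip (Z : Type u) [CStarAlgebra Z] : Prop :=
  ∃ (C : Type u) (_ : CStarAlgebra C) (t : Z → Z → C),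
    Vale.Agent.P095.IsSpatialTensorProduct t ∧ ∀ (S : Finset Z) (ε : ℝ), 0 < ε →
      ∃ u ∈ unitary C, ∀ z ∈ S, ‖u * t z 1 * star u - t 1 z‖ < ε

/-- `Z` is the Jiang-Su algebra.  By a theorem of Jiang and Su (1999) there is, up to isomorphism,
exactly one simple infinite-dimensional unital inductive limit of prime dimension drop algebras with
a unique tracial state (the first four fields): this is the Jiang-Su algebra.  The other fields are
the properties of it proved by Jiang and Su: it is separable, nuclear, strongly self-absorbing and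
has approximately inner half flip. -/
structure IsJiangSuAlgebra (Z : Type u) [CStarAlgebra Z] : Prop where
  simple : IsSimpleRing Z
  infinite : ¬ FiniteDimensional ℂ Z
  limit : IsLimitOfPrimeDimensionDropAlgebras Z
  monotracial : ∃! τ : Z →ₗ[ℂ] ℂ, IsTracialState τ
  separable : TopologicalSpace.SeparableSpace Z
  nuclear : UniqueCStarNorm Z
  selfAbsorbing : IsStronglySelfAbsorbing Z
  halfFlip : HasApproximatelyInnerHalfFlip Z

end P095H
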